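import Mathlib

namespace Vale.Agent.P252

lemma alg_A (k F F1 F2 r om om1 om2 P Q S2 : ℝ) (hF : F ≠ 0) (hF1 : F1 ≠ 0)
    (hd : F1 + 2 * r * F2 ≠ 0) (hP : P ≠ 0) (hS : S2 = P ^ 2 - F ^ 2)
    (star : 2 * r * F ^ 2 * F1 * om2 +
      (F ^ 2 * F1 + 4 * (k + 2) * r * F * F1 ^ 2 + (k - 1) * F ^ 2 * (F1 + 2 * r * F2)) * om1 +
      (k + 2) * (k + 1) * F1 * (F * F1 + 2 * r * (F1 ^ 2 + F * F2)) * om = 0) :
    ((2 * F * F1 / P + r * (4 * ((F1 ^ 2 + F * F2) / P - (F * F1) ^ 2 / P ^ 3))) /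
        (2 * F ^ 3 * (F1 + 2 * r * F2) / P ^ 4)) *
        ((k + 2) * k * (Q / P ^ 2) * S2 * om + (k + 2) * Q * om)
      + 2 * r * S2 * (F1 * P / (F ^ 2 * (F1 + 2 * r * F2))) *
        (2 * ((k + 2) * k * (Q / P ^ 2) * (F * F1) * om + (k + 2) * Q * om1))
      + k * (1 / (2 * F * F1 / P)) * (2 * ((k + 2) * Q * (F * F1) * om + Q * P ^ 2 * om1))
      + r * ((1 / (2 * F * F1 / P)) * (4 * ((k + 2) * k * (Q / P ^ 2) * (F * F1) ^ 2 * om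
            + (k + 2) * Q * (F1 ^ 2 + F * F2) * om + 2 * (k + 2) * Q * (F * F1) * om1
            + Q * P ^ 2 * om2))
          + (-F2 * P / (F * F1 * (F1 + 2 * r * F2))) *
            (2 * ((k + 2) * Q * (F * F1) * om + Q * P ^ 2 * om1)))
      + r ^ 2 * (-F2 * P / (F * F1 * (F1 + 2 * r * F2))) *
          (4 * ((k + 2) * k * (Q / P ^ 2) * (F * F1) ^ 2 * om
            + (k + 2) * Q * (F1 ^ 2 + F * F2) * om + 2 * (k + 2) * Q * (F * F1) * om1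
            + Q * P ^ 2 * om2)) = 0 := by
  have key : ((2 * F * F1 / P + r * (4 * ((F1 ^ 2 + F * F2) / P - (F * F1) ^ 2 / P ^ 3))) /
        (2 * F ^ 3 * (F1 + 2 * r * F2) / P ^ 4)) *
        ((k + 2) * k * (Q / P ^ 2) * S2 * om + (k + 2) * Q * om)
      + 2 * r * S2 * (F1 * P / (F ^ 2 * (F1 + 2 * r * F2))) *
        (2 * ((k + 2) * k * (Q / P ^ 2) * (F * F1) * om + (k + 2) * Q * om1))
      + k * (1 / (2 * F * F1 / P)) * (2 * ((k + 2) * Q * (F * F1) * om + Q * P ^ 2 * om1))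
      + r * ((1 / (2 * F * F1 / P)) * (4 * ((k + 2) * k * (Q / P ^ 2) * (F * F1) ^ 2 * om
            + (k + 2) * Q * (F1 ^ 2 + F * F2) * om + 2 * (k + 2) * Q * (F * F1) * om1
            + Q * P ^ 2 * om2))
          + (-F2 * P / (F * F1 * (F1 + 2 * r * F2))) *
            (2 * ((k + 2) * Q * (F * F1) * om + Q * P ^ 2 * om1)))
      + r ^ 2 * (-F2 * P / (F * F1 * (F1 + 2 * r * F2))) *
          (4 * ((k + 2) * k * (Q / P ^ 2) * (F * F1) ^ 2 * om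
            + (k + 2) * Q * (F1 ^ 2 + F * F2) * om + 2 * (k + 2) * Q * (F * F1) * om1
            + Q * P ^ 2 * om2))
      = Q * P ^ 3 / (F ^ 3 * F1 * (F1 + 2 * r * F2)) * (2 * r * F ^ 2 * F1 * om2 +
      (F ^ 2 * F1 + 4 * (k + 2) * r * F * F1 ^ 2 + (k - 1) * F ^ 2 * (F1 + 2 * r * F2)) * om1 +
      (k + 2) * (k + 1) * F1 * (F * F1 + 2 * r * (F1 ^ 2 + F * F2)) * om) := by
    subst hS
    field_simp
    ring
  rw [key, star, mul_zero]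

lemma alg_B_aux (k F F1 F2 F3 r L Lp C D : ℝ) (hF : F ≠ 0) (hF1 : F1 ≠ 0)
    (hd : D ≠ 0) (hc : C ≠ 0) (hD : D = F1 + 2 * r * F2) (hC : C = k * F + 4 * r * F1)
    (hL : L = -(k + 2) * (F1 / F + (F1 + 4 * r * F2) / C))
    (hLp : Lp = -(k + 2) * (F2 / F - F1 ^ 2 / F ^ 2
      + (5 * F2 + 4 * r * F3) / C
      - (F1 + 4 * r * F2) * ((k + 4) * F1 + 4 * r * F2) / C ^ 2)) :
    2 * r * F ^ 2 * F1 * (Lp + L ^ 2) +
      (F ^ 2 * F1 + 4 * (k + 2) * r * F * F1 ^ 2 + (k - 1) * F ^ 2 * (F1 + 2 * r * F2)) * L +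
      (k + 2) * (k + 1) * F1 * (F * F1 + 2 * r * (F1 ^ 2 + F * F2)) =
      (-4 * (k + 2) * r * F ^ 2 * F1 * D / C) *
      ((k - 1) * F2 / F1 + (6 * F2 + 4 * r * F3) / (2 * D)
      - (F1 / F + (k + 3) * (F1 + 4 * r * F2) / C)) := by
  subst hL hLp
  field_simp
  subst hD hC
  ring

lemma alg_B (k F F1 F2 F3 r L Lp : ℝ) (hF : F ≠ 0) (hF1 : F1 ≠ 0)
    (hd : F1 + 2 * r * F2 ≠ 0) (hc : k * F + 4 * r * F1 ≠ 0)
    (hL : L = -(k + 2) * (F1 / F + (F1 + 4 * r * F2) / (k * F + 4 * r * F1)))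
    (hLp : Lp = -(k + 2) * (F2 / F - F1 ^ 2 / F ^ 2
      + (5 * F2 + 4 * r * F3) / (k * F + 4 * r * F1)
      - (F1 + 4 * r * F2) * ((k + 4) * F1 + 4 * r * F2) / (k * F + 4 * r * F1) ^ 2))
    (hE : (k - 1) * F2 / F1 + (6 * F2 + 4 * r * F3) / (2 * (F1 + 2 * r * F2))
      = F1 / F + (k + 3) * (F1 + 4 * r * F2) / (k * F + 4 * r * F1)) :
    2 * r * F ^ 2 * F1 * (Lp + L ^ 2) +
      (F ^ 2 * F1 + 4 * (k + 2) * r * F * F1 ^ 2 + (k - 1) * F ^ 2 * (F1 + 2 * r * F2)) * L +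
      (k + 2) * (k + 1) * F1 * (F * F1 + 2 * r * (F1 ^ 2 + F * F2)) = 0 := by
  have hE' : (k - 1) * F2 / F1 + (6 * F2 + 4 * r * F3) / (2 * (F1 + 2 * r * F2))
      - (F1 / F + (k + 3) * (F1 + 4 * r * F2) / (k * F + 4 * r * F1)) = 0 := sub_eq_zero.2 hE
  rw [alg_B_aux k F F1 F2 F3 r L Lp _ _ hF hF1 hd hc rfl rfl hL hLp, hE', mul_zero]

end Vale.Agent.P252
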